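import Mathlib

/-! P325, package A-LIN: linear algebra for the bilinear scheme. -/

set_option linter.all false

namespace Vale.Agent.P325.H924

open Module LinearMap Submodule

/-! ### any field -/

section field

variable {F V W : Type*} [Field F] [AddCommGroup V] [Module F V] [FiniteDimensional F V]
  [AddCommGroup W] [Module F W] [FiniteDimensional F W]

/-- rank, as a natural number -/
noncomputable def rk (X : W →ₗ[F] V) : ℕ := finrank F (range X)

theorem range_add_le' (X Y : W →ₗ[F] V) : range (X + Y) ≤ range X ⊔ range Y := by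
  rintro _ ⟨w, rfl⟩
  exact Submodule.add_mem_sup (mem_range_self X w) (mem_range_self Y w)

theorem range_neg' (X : W →ₗ[F] V) : range (-X) = range X := by
  ext v
  constructor
  · rintro ⟨w, rfl⟩
    exact ⟨-w, by simp⟩
  · rintro ⟨w, rfl⟩
    exact ⟨-w, by simp⟩

theorem rk_neg (X : W →ₗ[F] V) : rk (-X) = rk X := by
  unfold rk; rw [range_neg']

theorem rk_add_le (X Y : W →ₗ[F] V) : rk (X + Y) ≤ rk X + rk Y :=
  (finrank_mono (range_add_le' X Y)).trans (finrank_add_le_finrank_add_finrank _ _)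

theorem rk_le_of_range {X : W →ₗ[F] V} {P : Submodule F V} (h : ∀ w, X w ∈ P) :
    rk X ≤ finrank F P :=
  finrank_mono (by rintro _ ⟨w, rfl⟩; exact h w)

theorem finrank_map_add (Y : W →ₗ[F] V) (A : Submodule F W) :
    finrank F (A.map Y) + finrank F (A ⊓ ker Y : Submodule F W) = finrank F A := by
  have h := finrank_range_add_finrank_ker (Y.comp A.subtype)
  rw [range_comp, Submodule.range_subtype, ker_comp] at h
  rw [← h]
  congr 1
  rw [← Submodule.map_comap_subtype, finrank_map_subtype_eq]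

/-- **The splitting lemma**, over any field. -/
theorem split_field (X Y Z : W →ₗ[F] V) (h : X + Y + Z = 0)
    (hr : range X ⊓ range Y ⊓ range Z = ⊥) (hk : ker X ⊔ ker Y ⊔ ker Z = ⊤) :
    ∃ X₁ : W →ₗ[F] V, rk X₁ + rk (Z + X₁) = rk Z ∧ rk (X - X₁) + rk X₁ = rk X ∧
      rk (X - X₁) + rk (Z + X₁) = rk Y := by
  have hw : ∀ w, X w + Y w + Z w = 0 := fun w => by
    have := LinearMap.congr_fun h w
    simpa using this
  set P := range X with hP
  set Q := range Y with hQ
  set R := range Z with hR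
  have mX : ∀ w, X w ∈ P := mem_range_self X
  have mY : ∀ w, Y w ∈ Q := mem_range_self Y
  have mZ : ∀ w, Z w ∈ R := mem_range_self Z
  have hPQR : P ≤ Q ⊔ R := by
    rintro _ ⟨w, rfl⟩
    have h1 : X w = -(Y w) + -(Z w) := by
      have := hw w
      rw [← sub_eq_zero]
      rw [← this]; abel
    rw [h1]
    exact Submodule.add_mem_sup (Q.neg_mem (mY w)) (R.neg_mem (mZ w))
  have hQPR : Q ≤ P ⊔ R := by
    rintro _ ⟨w, rfl⟩
    have h1 : Y w = -(X w) + -(Z w) := by
      have := hw w
      rw [← sub_eq_zero]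
      rw [← this]; abel
    rw [h1]
    exact Submodule.add_mem_sup (P.neg_mem (mX w)) (R.neg_mem (mZ w))
  have hRPQ : R ≤ P ⊔ Q := by
    rintro _ ⟨w, rfl⟩
    have h1 : Z w = -(X w) + -(Y w) := by
      have := hw w
      rw [← sub_eq_zero]
      rw [← this]; abel
    rw [h1]
    exact Submodule.add_mem_sup (P.neg_mem (mX w)) (Q.neg_mem (mY w))
  have s1 : P ⊔ Q = P ⊔ R := le_antisymm (sup_le le_sup_left hQPR) (sup_le le_sup_left hRPQ)
  have s2 : P ⊔ Q = Q ⊔ R := le_antisymm (sup_le hPQR le_sup_left)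
    (sup_le le_sup_right hRPQ)
  have d1 := finrank_sup_add_finrank_inf_eq P Q
  have d2 := finrank_sup_add_finrank_inf_eq P R
  have d3 := finrank_sup_add_finrank_inf_eq Q R
  rw [← s1] at d2
  rw [← s2] at d3
  -- kernels
  have k1 : ker X ⊓ ker Y = ker X ⊓ ker Z := by
    ext w
    simp only [Submodule.mem_inf, LinearMap.mem_ker]
    constructor
    · rintro ⟨a, b⟩
      refine ⟨a, ?_⟩
      have := hw w
      rw [a, b] at this; simpa using this
    · rintro ⟨a, b⟩
      refine ⟨a, ?_⟩
      have := hw w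
      rw [a, b] at this; simpa using this
  have e1 := finrank_sup_add_finrank_inf_eq (ker X) (ker Y)
  have e2 := finrank_sup_add_finrank_inf_eq (ker X) (ker Z)
  rw [← k1] at e2
  have r1 : finrank F P + finrank F (ker X) = finrank F W := finrank_range_add_finrank_ker X
  have r2 : finrank F Q + finrank F (ker Y) = finrank F W := finrank_range_add_finrank_ker Y
  have r3 : finrank F R + finrank F (ker Z) = finrank F W := finrank_range_add_finrank_ker Z
  -- first inequality
  have m1 := finrank_map_add Y (ker X)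
  have m2 : finrank F ((ker X).map Y) ≤ finrank F (Q ⊓ R : Submodule F V) := by
    apply finrank_mono
    rintro _ ⟨w, hw1, rfl⟩
    refine ⟨mY w, ?_⟩
    have h1 : Y w = -(Z w) := by
      have := hw w
      rw [LinearMap.mem_ker.1 hw1, zero_add] at this
      exact eq_neg_of_add_eq_zero_left this
    rw [h1]
    exact R.neg_mem (mZ w)
  -- second inequality
  have m3 : finrank F (P ⊓ Q : Submodule F V) + finrank F (P ⊓ R : Submodule F V) ≤
      finrank F P := by
    have h1 := finrank_sup_add_finrank_inf_eq (P ⊓ Q) (P ⊓ R)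
    have h2 : (P ⊓ Q) ⊓ (P ⊓ R) = ⊥ := by
      rw [← hr]
      apply le_antisymm
      · exact le_inf inf_le_left (inf_le_right.trans inf_le_right)
      · exact le_inf inf_le_left (le_inf (inf_le_left.trans inf_le_left) inf_le_right)
    rw [h2, finrank_bot, add_zero] at h1
    rw [← h1]
    exact finrank_mono (sup_le inf_le_left inf_le_left)
  -- third inequality
  have m4 : finrank F W + finrank F (ker X) ≤ finrank F (ker X ⊔ ker Y : Submodule F W) +
      finrank F (ker X ⊔ ker Z : Submodule F W) := by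
    have h1 := finrank_sup_add_finrank_inf_eq (ker X ⊔ ker Y) (ker X ⊔ ker Z)
    have h2 : (ker X ⊔ ker Y) ⊔ (ker X ⊔ ker Z) = ⊤ := by
      rw [eq_top_iff, ← hk]
      exact sup_le le_sup_left (le_sup_right.trans le_sup_right)
    rw [h2, finrank_top] at h1
    rw [← h1]
    exact Nat.add_le_add_left (finrank_mono (le_inf le_sup_left le_sup_left)) _
  have hi : finrank F (P ⊓ Q : Submodule F V) + finrank F (P ⊓ R : Submodule F V) =
      finrank F P := by omega
  have hj : finrank F (P ⊓ R : Submodule F V) + finrank F (Q ⊓ R : Submodule F V) =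
      finrank F R := by omega
  have hl : finrank F (P ⊓ Q : Submodule F V) + finrank F (Q ⊓ R : Submodule F V) =
      finrank F Q := by omega
  -- P is the sum of its two intersections
  have hPs : P ≤ (P ⊓ Q) ⊔ (P ⊓ R) := by
    refine (Submodule.eq_of_le_of_finrank_le (sup_le inf_le_left inf_le_left) ?_).ge
    have h1 := finrank_sup_add_finrank_inf_eq (P ⊓ Q) (P ⊓ R)
    have h2 : (P ⊓ Q) ⊓ (P ⊓ R) = ⊥ := by
      rw [eq_bot_iff, ← hr]
      exact le_inf inf_le_left (inf_le_right.trans inf_le_right)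
    rw [h2, finrank_bot, add_zero] at h1
    omega
  have hRs : R ≤ (P ⊓ R) ⊔ (Q ⊓ R) := by
    refine (Submodule.eq_of_le_of_finrank_le (sup_le inf_le_right inf_le_right) ?_).ge
    have h1 := finrank_sup_add_finrank_inf_eq (P ⊓ R) (Q ⊓ R)
    have h2 : (P ⊓ R) ⊓ (Q ⊓ R) = ⊥ := by
      rw [eq_bot_iff, ← hr]
      exact le_inf (le_inf (inf_le_left.trans inf_le_left) (inf_le_right.trans inf_le_left))
        (inf_le_left.trans inf_le_right)
    rw [h2, finrank_bot, add_zero] at h1
    omega
  -- the projection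
  have hdis : Disjoint Q (P ⊓ R) := by
    rw [disjoint_iff, eq_bot_iff, ← hr]
    exact le_inf (le_inf (inf_le_right.trans inf_le_left) inf_le_left)
      (inf_le_right.trans inf_le_right)
  obtain ⟨C, hQC, hC⟩ := hdis.exists_isCompl
  set e := (P ⊓ R).projection C hC.symm with he
  have eQ : ∀ v ∈ Q, e v = 0 := fun v hv =>
    (projection_apply_eq_zero_iff hC.symm).2 (hQC hv)
  have ePR : ∀ v ∈ P ⊓ R, e v = v := fun v hv => projection_apply_of_mem_left hC.symm hv
  refine ⟨e.comp X, ?_⟩
  have c1 : rk (e.comp X) ≤ finrank F (P ⊓ R : Submodule F V) :=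
    rk_le_of_range fun w => projection_apply_mem hC.symm (X w)
  have c2 : rk (X - e.comp X) ≤ finrank F (P ⊓ Q : Submodule F V) := by
    apply rk_le_of_range
    intro w
    obtain ⟨a, ha, b, hb, hab⟩ := Submodule.mem_sup.1 (hPs (mX w))
    have h1 : (X - e.comp X) w = a := by
      rw [LinearMap.sub_apply, LinearMap.comp_apply, ← hab, map_add, eQ a ha.2, ePR b hb]
      abel
    rw [h1]; exact ha
  have c3 : rk (Z + e.comp X) ≤ finrank F (Q ⊓ R : Submodule F V) := by
    apply rk_le_of_range
    intro w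
    obtain ⟨b, hb, c, hc, hbc⟩ := Submodule.mem_sup.1 (hRs (mZ w))
    have h0 : e (X w) = -(e (Z w)) := by
      have := congrArg e (hw w)
      rw [map_add, map_add, map_zero, eQ _ (mY w), add_zero] at this
      exact eq_neg_of_add_eq_zero_left this
    have h1 : (Z + e.comp X) w = c := by
      rw [LinearMap.add_apply, LinearMap.comp_apply, h0, ← hbc, map_add, eQ c hc.1, ePR b hb]
      abel
    rw [h1]; exact hc
  have b1 : rk X ≤ rk (X - e.comp X) + rk (e.comp X) := by
    have := rk_add_le (X - e.comp X) (e.comp X)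
    rwa [sub_add_cancel] at this
  have b2 : rk Z ≤ rk (Z + e.comp X) + rk (e.comp X) := by
    have := rk_add_le (Z + e.comp X) (-(e.comp X))
    rwa [add_neg_cancel_right, rk_neg] at this
  have b3 : rk Y ≤ rk (X - e.comp X) + rk (Z + e.comp X) := by
    have := rk_add_le (X - e.comp X) (Z + e.comp X)
    have h1 : X - e.comp X + (Z + e.comp X) = -Y := by
      rw [← sub_eq_zero, ← h]; abel
    rwa [h1, rk_neg] at this
  have q1 : rk X = finrank F P := rfl
  have q2 : rk Y = finrank F Q := rfl
  have q3 : rk Z = finrank F R := rfl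
  omega

/-- rank additivity: ranges -/
theorem range_le_of_rk {X X₁ : W →ₗ[F] V} (h : rk X₁ + rk (X - X₁) = rk X) :
    range X₁ ≤ range X := by
  have h1 : range X ≤ range X₁ ⊔ range (X - X₁) := by
    have := range_add_le' X₁ (X - X₁)
    rwa [add_sub_cancel] at this
  have h2 : finrank F (range X₁ ⊔ range (X - X₁) : Submodule F V) ≤ finrank F (range X) :=
    (finrank_add_le_finrank_add_finrank _ _).trans h.le
  rw [Submodule.eq_of_le_of_finrank_le h1 h2]
  exact le_sup_left

/-- rank additivity: kernels -/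
theorem ker_le_of_rk {X X₁ : W →ₗ[F] V} (h : rk X₁ + rk (X - X₁) = rk X) :
    ker X ≤ ker X₁ := by
  have h1 : ker X₁ ⊓ ker (X - X₁) ≤ ker X := by
    rintro w ⟨a, b⟩
    have a' : X₁ w = 0 := a
    have b' : X w - X₁ w = 0 := b
    rw [a', sub_zero] at b'
    exact b'
  have h2 := finrank_sup_add_finrank_inf_eq (ker X₁) (ker (X - X₁))
  have h3 : finrank F (ker X₁ ⊔ ker (X - X₁) : Submodule F W) ≤ finrank F W :=
    Submodule.finrank_le _
  have r1 := finrank_range_add_finrank_ker X
  have r2 := finrank_range_add_finrank_ker X₁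
  have r3 := finrank_range_add_finrank_ker (X - X₁)
  unfold rk at h
  have h4 : finrank F (ker X) ≤ finrank F (ker X₁ ⊓ ker (X - X₁) : Submodule F W) := by omega
  rw [← Submodule.eq_of_le_of_finrank_le h1 h4]
  exact inf_le_left

end field

/-! ### the field with two elements -/

section two

variable {V W : Type*} [AddCommGroup V] [Module (ZMod 2) V] [FiniteDimensional (ZMod 2) V]
  [AddCommGroup W] [Module (ZMod 2) W] [FiniteDimensional (ZMod 2) W]

/-- **The splitting lemma** over the field with two elements. -/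
theorem split_two (X Y Z : W →ₗ[ZMod 2] V) (h : X + Y + Z = 0)
    (hr : range X ⊓ range Y ⊓ range Z = ⊥) (hk : ker X ⊔ ker Y ⊔ ker Z = ⊤) :
    ∃ X₁ : W →ₗ[ZMod 2] V, rk X₁ + rk (Z - X₁) = rk Z ∧ rk (X - X₁) + rk X₁ = rk X ∧
      rk (X - X₁) + rk (Z - X₁) = rk Y := by
  obtain ⟨X₁, h1, h2, h3⟩ := split_field X Y Z h hr hk
  have h4 : Z + X₁ = Z - X₁ := by
    rw [sub_eq_add_neg, ZModModule.neg_eq_self]
  rw [h4] at h1 h3
  exact ⟨X₁, h1, h2, h3⟩

theorem natCard_of_rk (M : Type*) [AddCommGroup M] [Module (ZMod 2) M]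
    [FiniteDimensional (ZMod 2) M] : Nat.card M = 2 ^ finrank (ZMod 2) M := by
  rw [Module.natCard_eq_pow_finrank (K := ZMod 2), Nat.card_zmod]

/-- the number of rank additive splittings -/
theorem card_split (X : W →ₗ[ZMod 2] V) :
    Nat.card {X₁ : W →ₗ[ZMod 2] V // rk X₁ + rk (X - X₁) = rk X} ≤ 2 ^ (rk X ^ 2) := by
  have hfin : Finite ((W ⧸ ker X) →ₗ[ZMod 2] range X) := Module.finite_of_finite (ZMod 2)
  have hc : Nat.card ((W ⧸ ker X) →ₗ[ZMod 2] range X) = 2 ^ (rk X ^ 2) := by
    rw [natCard_of_rk, Module.finrank_linearMap, X.quotKerEquivRange.finrank_eq, pow_two]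
    rfl
  rw [← hc]
  refine Nat.card_le_card_of_injective (fun X₁ => (ker X).liftQ
    (X₁.1.codRestrict (range X) fun w => range_le_of_rk X₁.2 (mem_range_self X₁.1 w))
    (by rw [ker_codRestrict]; exact ker_le_of_rk X₁.2)) ?_
  intro X₁ X₂ h12
  apply Subtype.ext
  ext w
  have h1 := LinearMap.congr_fun h12 (Submodule.Quotient.mk w)
  exact congrArg Subtype.val h1

theorem ncard_split (X : W →ₗ[ZMod 2] V) :
    {X₁ : W →ₗ[ZMod 2] V | rk X₁ + rk (X - X₁) = rk X}.ncard ≤ 2 ^ (rk X ^ 2) :=
  card_split X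

theorem card_submodule_le (M : Type*) [AddCommGroup M] [Module (ZMod 2) M] [Finite M] :
    Nat.card (Submodule (ZMod 2) M) ≤ 2 ^ Nat.card M := by
  classical
  have := Fintype.ofFinite M
  have h1 : Nat.card (Set M) = 2 ^ Nat.card M := by
    rw [Nat.card_eq_fintype_card, Fintype.card_set, Nat.card_eq_fintype_card]
  rw [← h1]
  exact Nat.card_le_card_of_injective (fun S : Submodule (ZMod 2) M => (S : Set M))
    SetLike.coe_injective

/-- the number of pairs `(B, A)` with `ker Z ≤ B`, `A ≤ range Z` -/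
theorem card_pairs (Z : W →ₗ[ZMod 2] V) :
    Nat.card {p : Submodule (ZMod 2) W × Submodule (ZMod 2) V // ker Z ≤ p.1 ∧ p.2 ≤ range Z} ≤
      (2 ^ 2 ^ rk Z) ^ 2 := by
  have f1 : Finite (W ⧸ ker Z) := Module.finite_of_finite (ZMod 2)
  have f2 : Finite (range Z) := Module.finite_of_finite (ZMod 2)
  have f3 : Finite (Submodule (ZMod 2) (W ⧸ ker Z)) := Finite.of_injective
    (fun S : Submodule (ZMod 2) (W ⧸ ker Z) => (S : Set (W ⧸ ker Z))) SetLike.coe_injective
  have f4 : Finite (Submodule (ZMod 2) (range Z)) := Finite.of_injective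
    (fun S : Submodule (ZMod 2) (range Z) => (S : Set (range Z))) SetLike.coe_injective
  have c1 : Nat.card (Submodule (ZMod 2) (W ⧸ ker Z)) ≤ 2 ^ 2 ^ rk Z := by
    refine (card_submodule_le _).trans_eq ?_
    rw [natCard_of_rk, Z.quotKerEquivRange.finrank_eq]
    rfl
  have c2 : Nat.card (Submodule (ZMod 2) (range Z)) ≤ 2 ^ 2 ^ rk Z := by
    refine (card_submodule_le _).trans_eq ?_
    rw [natCard_of_rk]
    rfl
  calc _ ≤ Nat.card (Submodule (ZMod 2) (W ⧸ ker Z) × Submodule (ZMod 2) (range Z)) := by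
        refine Nat.card_le_card_of_injective
          (fun p => (p.1.1.map (ker Z).mkQ, p.1.2.comap (range Z).subtype)) ?_
        rintro ⟨⟨B, A⟩, hB, hA⟩ ⟨⟨B', A'⟩, hB', hA'⟩ h
        simp only [Prod.mk.injEq] at h
        have h1 : B = B' := by
          have := congrArg (Submodule.comap (ker Z).mkQ) h.1
          rw [Submodule.comap_map_mkQ, Submodule.comap_map_mkQ, sup_eq_right.2 hB,
            sup_eq_right.2 hB'] at this
          exact this
        have h2 : A = A' := by
          have := congrArg (Submodule.map (range Z).subtype) h.2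
          rw [Submodule.map_comap_subtype, Submodule.map_comap_subtype, inf_eq_right.2 hA,
            inf_eq_right.2 hA'] at this
          exact this
        rw [Subtype.mk.injEq, Prod.mk.injEq]
        exact ⟨h1, h2⟩
    _ = Nat.card (Submodule (ZMod 2) (W ⧸ ker Z)) * Nat.card (Submodule (ZMod 2) (range Z)) :=
        Nat.card_prod _ _
    _ ≤ 2 ^ 2 ^ rk Z * 2 ^ 2 ^ rk Z := Nat.mul_le_mul c1 c2
    _ = _ := by rw [pow_two]

theorem ncard_pairs (Z : W →ₗ[ZMod 2] V) :
    {p : Submodule (ZMod 2) W × Submodule (ZMod 2) V | ker Z ≤ p.1 ∧ p.2 ≤ range Z}.ncard ≤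
      (2 ^ 2 ^ rk Z) ^ 2 :=
  card_pairs Z

end two

end Vale.Agent.P325.H924
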